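import Crest.Agent.X262.Surf.Bas
import Crest.Agent.X262.Surf.Defs2
import Crest.Agent.X262.Rho82.Nef
import Crest.Agent.X262.Rul.Br
import Crest.Agent.R276.FGSub_595

-- ▼ part X262/Surf/Core
section

/-!
# Row 262, SURF (helper50), part 4: the Riemann-Roch inequality of an ordering of the sheets
-/

set_option autoImplicit false

noncomputable section

namespace Crest.Agent.X262.Surf

open Crest.Agent.X277 Crest.Agent.X277.Lef Crest.Agent.X277.AN.G1 Crest.Agent.X277.BD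
open Crest.Agent.X277.BD.Br Module Filter Finset
open Crest.Agent.X262.Gal71 (sh pb_sh_inc deg_sh_mul)

/-- the packages which are used by the inequality -/
structure Hyps : Prop where
  ser : SerStmt
  kv : KVStmt
  bir : ChiBirStmt
  flag : FlagStmt
  up : UpStmt
  low : LowStmt
  pure : PureStmt
  mono : MonoStmt
  res : ResStmt
  kexc : KExcStmt

section One

variable {F : Type} [Field F] [Algebra ℂ F] [Algebra.EssFiniteType ℂ F]

theorem rr_eq (P : PModel ℂ F) (b : B2 F) (c : ℤ) (a : BD ℂ F) :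
    rr P b c a = 2 * c + bnum [a, a] - bnum [kP P b, a] := by
  rw [rr, bnum_sub2, bnum_swap a (kP P b), add_sub_assoc]

theorem sq_add (a b : BD ℂ F) :
    bnum [a + b, a + b] = bnum [a, a] + 2 * bnum [a, b] + bnum [b, b] := by
  rw [bnum_add, bnum_add2, bnum_add2, bnum_swap b a]
  ring

theorem sq_sub (a b : BD ℂ F) :
    bnum [a - b, a - b] = bnum [a, a] - 2 * bnum [a, b] + bnum [b, b] := by
  rw [bnum_sub, bnum_sub2, bnum_sub2, bnum_swap b a]
  ring

theorem sq_nsmul (m : ℕ) (a : BD ℂ F) : bnum [m • a, m • a] = m ^ 2 * bnum [a, a] := by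
  rw [bnum_nsmul, bnum_nsmul2]
  ring

theorem sum_rr (P : PModel ℂ F) (b : B2 F) (c : ℤ) {n : ℕ} (Λ : ℕ → Fin n → F) (k m : ℕ)
    (H : BD ℂ F) : ∑ r ∈ range k, rr P b c (Nm Λ r + m • H) =
      2 * k * c + ∑ r ∈ range k, bnum [Nm Λ r, Nm Λ r] + 2 * m * bnum [Dm Λ k, H] +
        k * m ^ 2 * bnum [H, H] - bnum [kP P b, Dm Λ k] - k * m * bnum [kP P b, H] := by
  rw [← sum_Nm, bnum_sum, bnum_sum2]
  simp only [rr_eq, sq_add, sq_nsmul]
  simp only [bnum_add2, bnum_nsmul2, sum_sub_distrib, sum_add_distrib, sum_const, card_range,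
    nsmul_eq_mul, ← mul_sum]
  ring

theorem exists_flag (H : Hyps) (B : PModel ℂ F) {n : ℕ} (Λ : ℕ → Fin n → F) (k : ℕ) :
    ∃ B' : PModel ℂ F, oP B ∈ On B' ∧ ∀ r ≤ k, Dm Λ r ∈ On B' := by
  classical
  obtain ⟨B', h⟩ := H.res F (insert (oP B) ((range (k + 1)).image (Dm Λ)))
  exact ⟨B', h _ (mem_insert_self _ _), fun r hr =>
    h _ (mem_insert_of_mem (mem_image_of_mem _ (mem_range.2 (Nat.lt_succ_of_le hr))))⟩

end One

theorem lin_of_eventually {A β C : ℤ} {m0 : ℕ} (hβ : 0 ≤ β)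
    (h : ∀ᶠ m : ℕ in atTop, A + (m0 + m) * β ≤ C) : β = 0 ∧ A ≤ C := by
  obtain ⟨m, h1, h2⟩ := (h.and (eventually_gt_atTop (C - A).toNat)).exists
  have h3 : C - A < m := by omega
  have h4 : β = 0 := by
    by_contra h5
    have h6 : 1 ≤ β := by omega
    nlinarith [Int.natCast_nonneg m0, Int.natCast_nonneg m]
  exact ⟨h4, by simpa [h4] using h1⟩

/-- the data of a finite extension of surfaces -/
structure Run (E F : Type) [Field E] [Field F] [Algebra ℂ E] [Algebra ℂ F] [Algebra E F]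
    [IsScalarTower ℂ E F] [Algebra.EssFiniteType ℂ E] [Algebra.EssFiniteType ℂ F] where
  /-- the base -/
  B : PModel ℂ E
  /-- the model upstairs -/
  P : PModel ℂ F
  /-- differentials downstairs -/
  bE : B2 E
  /-- differentials upstairs -/
  bF : B2 F
  /-- `χ(O)` downstairs -/
  cE : ℤ
  /-- `χ(O)` upstairs -/
  cF : ℤ
  /-- the degree of the generators -/
  m0 : ℕ
  /-- the number of the generators -/
  n : ℕ
  /-- the generators -/
  s : Fin n → F
  gen : Gen B m0 s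
  cmp : Cmp (tw E F) bE bF
  on : pb (tw E F) (oP B) ∈ On P
  chiE : Chi B bE cE
  chiF : Chi P bF cF

namespace Run

variable {E F Ω : Type} [Field E] [Field F] [Field Ω] [Algebra ℂ E] [Algebra ℂ F] [Algebra ℂ Ω]
  [Algebra E F] [IsScalarTower ℂ E F] [Algebra E Ω] [IsScalarTower ℂ E Ω]
  [Algebra.EssFiniteType ℂ E] [Algebra.EssFiniteType ℂ F] (R : Run E F) (H : Hyps) {k : ℕ}

include H in
theorem up_E (w : Basis (Fin k) E F) : ∀ᶠ m : ℕ in atTop,
    2 * h0 ((R.m0 + m) • pb (tw E F) (oP R.B)) ≤ 2 * k * R.cE +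
      ∑ r ∈ range k, bnum [Nm (crd w R.s) r, Nm (crd w R.s) r] +
        2 * m * bnum [Dm (crd w R.s) k, oP R.B] + k * m ^ 2 * bnum [oP R.B, oP R.B] -
          bnum [kP R.B R.bE, Dm (crd w R.s) k] - k * m * bnum [kP R.B R.bE, oP R.B] := by
  obtain ⟨B', h1, h2⟩ := exists_flag H R.B (crd w R.s) k
  have h3 := H.kexc E R.B B' R.bE h1 _ oP_mem
  have h4 : bnum [kP R.B R.bE, Dm (crd w R.s) k] ≤ bnum [kP B' R.bE, Dm (crd w R.s) k] :=
    bnum_mono1 (eff_sub_of_le (kP_le R.bE h1)).psef (by simpa using nef_Dm _ _)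
  filter_upwards [H.up E B' R.bE R.cE R.n k (crd w R.s) (oP R.B) (H.bir E _ _ _ _ _ R.chiE)
    (rk_crd w R.gen.span) h2 h1 (Hor83.isMod_oP _).big, R.chiE 0 (zero_mem _)] with m h5 h6
  have h7 := R.gen.h0_le w m
  rw [zero_add, rr_eq, bnum_nsmul2 (kP _ _)] at h6
  rw [sum_rr, rr_eq, bnum_nsmul2 (kP _ _), h3, h6, sub_self, mul_zero, add_zero] at h5
  linarith

theorem sq_F (w : Basis (Fin k) E F) (a b : BD ℂ E) :
    bnum [pb (tw E F) a, pb (tw E F) b] = k * bnum [a, b] := by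
  rw [bnum_pb2, deg_tower, finrank_eq_card_basis w, Fintype.card_fin]

include H in
theorem low_F (w : Basis (Fin k) E F) (hk : 0 < k) : ∀ᶠ m : ℕ in atTop,
    2 * R.cF + (R.m0 + m) ^ 2 * (k * bnum [oP R.B, oP R.B]) -
      (R.m0 + m) * bnum [kP R.P R.bF, pb (tw E F) (oP R.B)] ≤
        2 * h0 ((R.m0 + m) • pb (tw E F) (oP R.B)) := by
  filter_upwards [eventually_gt_atTop (bnum [kP R.P R.bF, pb (tw E F) (oP R.B)]).toNat] with m hm
  have h1 := H.ser F R.P R.bF R.cF R.chiF _ (nsmul_mem R.on (R.m0 + m))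
  have h2 := oP_sq_pos R.B R.bE
  have h3 : (0 : ℤ) < k := Int.natCast_pos.2 hk
  rw [rr_eq, sq_nsmul, bnum_nsmul2 (kP _ _), sq_F w,
    h0_eq_zero (a := _ - _) (free_oP.nef.pb (tw E F) : Nef (pb _ (oP R.B))) (by
      rw [bnum_sub, bnum_nsmul, sq_F w]
      have h4 : bnum [kP R.P R.bF, pb (tw E F) (oP R.B)] < m := by omega
      have h5 : 1 ≤ k * bnum [oP R.B, oP R.B] := mul_pos h3 h2
      push_cast
      nlinarith [Int.natCast_nonneg R.m0, Int.natCast_nonneg m])] at h1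
  push_cast at h1
  linarith

variable (Ω) in
/-- the hyperplane class on the Galois closure -/
abbrev Hq : BD ℂ Ω := pb (tw E Ω) (oP R.B)

variable (Ω) in
/-- the canonical class of the base on the Galois closure -/
abbrev Kq : BD ℂ Ω := pb (tw E Ω) (kP R.B R.bE)

/-- the contact divisors -/
abbrev x (p p' : F →ₐ[E] Ω) : BD ℂ Ω := xx R.B R.m0 R.s p p'

/-- the graded pieces of an ordering -/
def ξ (p : ℕ → F →ₐ[E] Ω) (r : ℕ) : BD ℂ Ω := R.m0 • R.Hq Ω - Nm (cj R.s p) r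

variable [Algebra.EssFiniteType ℂ Ω] [FiniteDimensional E F] [FiniteDimensional E Ω]
  {p : ℕ → F →ₐ[E] Ω}

omit [FiniteDimensional E F] in
include R in
theorem dim_Ω : dim ℂ Ω = 2 :=
  ((deg_pos_iff (tw E Ω)).1 (by rw [deg_tower]; exact finrank_pos)).trans (Hor83.dim_two R.bE)

omit [FiniteDimensional E F] in
theorem hor_H {y : BD ℂ Ω} (h : ∀ W, Hor R.B (tw E Ω) W → 1 ≤ y.val W) :
    0 ≤ bnum [y, R.Hq Ω] :=
  Hor83.horStmt E Ω (tw E Ω) R.B R.bE y _ 0 _ 1 R.dim_Ω (free_oP.nef.pb _) Nef.zero oP_mem one_pos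
    (by simpa using NumZ.zero) h

omit [FiniteDimensional E F] in
theorem hor_eq {y y' : BD ℂ Ω} (h : ∀ W, Hor R.B (tw E Ω) W → y.val W = y'.val W) :
    bnum [y, R.Hq Ω] = bnum [y', R.Hq Ω] := by
  have h1 := R.hor_H (y := y - y') fun W hW => by rw [val_sub, h W hW, div_self (val_ne _ _)]
  have h2 := R.hor_H (y := y' - y) fun W hW => by rw [val_sub, h W hW, div_self (val_ne _ _)]
  rw [bnum_sub] at h1 h2
  linarith

omit [Algebra.EssFiniteType ℂ Ω] in
include H in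
theorem ξ_val (hp : Set.InjOn p (Set.Iio (finrank E F))) {r : ℕ} (hr : r < finrank E F)
    {W : RZ ℂ Ω} (hW : Hor R.B (tw E Ω) W) :
    (R.ξ p r).val W = (∑ a ∈ range r, R.x (p a) (p r)).val W := by
  rw [ξ, val_sub, ← (H.mono E F Ω R.B R.P R.bE R.bF R.m0 R.n R.s p W R.gen R.cmp R.on hp hW).1 r hr,
    val_add, mul_div_cancel_left₀ _ (val_ne _ _)]

omit [Algebra.EssFiniteType ℂ Ω] [FiniteDimensional E F] [FiniteDimensional E Ω] in
theorem Nm_eq (r : ℕ) : Nm (cj R.s p) r = R.m0 • R.Hq Ω - R.ξ p r := by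
  rw [ξ, sub_sub_cancel]

omit [Algebra.EssFiniteType ℂ Ω] [FiniteDimensional E F] [FiniteDimensional E Ω] in
theorem Dm_eq (k : ℕ) : Dm (cj R.s p) k = (k * R.m0) • R.Hq Ω - ∑ r ∈ range k, R.ξ p r := by
  rw [← sum_Nm]
  simp only [Nm_eq, sum_sub_distrib, sum_const, card_range, mul_smul]

omit [FiniteDimensional E F] [FiniteDimensional E Ω] in
theorem num_Dm (w : Basis (Fin k) E F) (hp : Set.InjOn p (Set.Iio k)) (a : BD ℂ E) :
    finrank E Ω * bnum [Dm (crd w R.s) k, a] = k * R.m0 * (finrank E Ω * bnum [oP R.B, a]) -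
      ∑ r ∈ range k, bnum [R.ξ p r, pb (tw E Ω) a] := by
  have h1 := congrArg (fun z => bnum [z, pb (tw E Ω) a])
    ((Dm_cj w R.gen.span hp).symm.trans (R.Dm_eq k))
  simp only [bnum_add, bnum_pr, add_zero, bnum_sub, bnum_nsmul, bnum_sum, bnum_pb2, deg_tower]
    at h1
  rw [h1]
  push_cast
  ring

omit [FiniteDimensional E F] in
include H in
theorem num_Nm (w : Basis (Fin k) E F) (hp : Set.InjOn p (Set.Iio k)) :
    finrank E Ω * ∑ r ∈ range k, bnum [Nm (crd w R.s) r, Nm (crd w R.s) r] =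
      k * R.m0 ^ 2 * (finrank E Ω * bnum [oP R.B, oP R.B]) -
        2 * R.m0 * ∑ r ∈ range k, bnum [R.ξ p r, R.Hq Ω] +
          ∑ r ∈ range k, bnum [R.ξ p r, R.ξ p r] := by
  have h1 := (H.flag Ω R.n k (fun i j => tw E Ω (crd w R.s i j)) (cj R.s p) (tm w p) R.dim_Ω
    ((rk_crd w R.gen.span).map _) (rk_cj w R.gen.span hp) fun i _ j => cj_eq w R.s p i j).2
  simp only [← pb_Nm, bnum_pb2, deg_tower, ← mul_sum] at h1
  rw [← h1]
  simp only [Nm_eq, sq_sub, sq_nsmul]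
  simp only [bnum_nsmul, bnum_pb2, deg_tower, sum_add_distrib,
    sum_sub_distrib, sum_const, card_range, nsmul_eq_mul, ← mul_sum, bnum_swap (R.Hq Ω) (R.ξ _ _)]
  ring

theorem sum_erase_symm {f : ℕ → ℕ → ℤ} (hf : ∀ a i, f a i = f i a) (k : ℕ) :
    ∑ i ∈ range k, ∑ a ∈ (range k).erase i, f a i = 2 * ∑ r ∈ range k, ∑ a ∈ range r, f a r := by
  induction k with
  | zero => simp
  | succ k ih =>
    have h1 : ∀ i ∈ range k, ∑ a ∈ (range (k + 1)).erase i, f a i =
        ∑ a ∈ (range k).erase i, f a i + f i k := fun i hi => by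
      rw [range_add_one, erase_insert_of_ne (mem_range.1 hi).ne', sum_insert (by simp), hf k i,
        add_comm]
    rw [sum_range_succ, sum_range_succ, sum_congr rfl h1, sum_add_distrib, ih, range_add_one,
      erase_insert notMem_range_self]
    ring

include H in
/-- **the inequality of an ordering**, and the formula for the ramification divisor -/
theorem core (hp : Set.InjOn p (Set.Iio (finrank E F))) :
    (finrank E Ω : ℤ) * (2 * R.cF - 2 * finrank E F * R.cE) ≤ ∑ r ∈ range (finrank E F),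
      (bnum [R.ξ p r, R.ξ p r] + bnum [R.Kq Ω, R.ξ p r]) ∧
    ∀ i < finrank E F, ∀ W, Hor R.B (tw E Ω) W → (pb (sh ℂ (p i)) (kP R.P R.bF)).val W =
      (R.Kq Ω + ∑ a ∈ (range (finrank E F)).erase i, R.x (p a) (p i)).val W := by
  set k := finrank E F with hk
  let w : Basis (Fin k) E F := finBasis E F
  set y : ℕ → BD ℂ Ω := fun i => R.Kq Ω + ∑ a ∈ (range k).erase i, R.x (p a) (p i) -
    pb (sh ℂ (p i)) (kP R.P R.bF) with hy
  have h1 : ∀ i < k, ∀ W, Hor R.B (tw E Ω) W → 1 ≤ (y i).val W := fun i hi W hW => by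
    rw [hy, val_sub, one_le_div₀ (val_pos _ _)]
    exact (H.mono E F Ω R.B R.P R.bE R.bF R.m0 R.n R.s p W R.gen R.cmp R.on hp hW).2 i hi
  have h2 : ∀ i ∈ range k, 0 ≤ bnum [y i, R.Hq Ω] := fun i hi => R.hor_H (h1 i (mem_range.1 hi))
  have h3 : ∀ r ∈ range k, bnum [R.ξ p r, R.Hq Ω] =
      ∑ a ∈ range r, bnum [R.x (p a) (p r), R.Hq Ω] := fun r hr => by
    rw [R.hor_eq fun W hW => R.ξ_val H hp (mem_range.1 hr) hW, bnum_sum]
  have h4 : ∀ i, (k : ℤ) * bnum [pb (sh ℂ (p i)) (kP R.P R.bF), R.Hq Ω] =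
      finrank E Ω * bnum [kP R.P R.bF, pb (tw E F) (oP R.B)] := fun i => by
    rw [Hq, ← pb_sh_inc (p i), bnum_pb2, ← deg_sh_mul (k := ℂ) (p i), ← mul_assoc, Nat.cast_mul]
  have hk0 : 0 < k := finrank_pos
  have h5 : ∑ i ∈ range k, bnum [y i, R.Hq Ω] = 2 * ∑ r ∈ range k, bnum [R.ξ p r, R.Hq Ω] +
      k * (finrank E Ω * bnum [kP R.B R.bE, oP R.B]) -
        finrank E Ω * bnum [kP R.P R.bF, pb (tw E F) (oP R.B)] := by
    refine mul_left_cancel₀ (Int.natCast_pos.2 hk0).ne' ?_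
    simp only [hy, bnum_sub, bnum_add, bnum_sum, sum_sub_distrib, sum_add_distrib]
    rw [sum_erase_symm (f := fun a i => bnum [R.x (p a) (p i), R.Hq Ω])
      fun a i => by rw [x, xx_comm], ← sum_congr rfl h3, mul_sub, mul_sum (range k) _ (k : ℤ)]
    simp only [h4, bnum_pb2, deg_tower, sum_const, card_range, nsmul_eq_mul]
    ring
  have h6 := lin_of_eventually (m0 := R.m0) (sum_nonneg h2)
    (A := (finrank E Ω : ℤ) * (2 * R.cF - 2 * k * R.cE))
    (C := ∑ r ∈ range k, (bnum [R.ξ p r, R.ξ p r] + bnum [R.Kq Ω, R.ξ p r])) (by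
      filter_upwards [R.up_E H w, R.low_F H w hk0] with m h6 h7
      have h8 := mul_le_mul_of_nonneg_left (h7.trans h6) (Int.natCast_nonneg (finrank E Ω))
      have h9 := R.num_Dm w hp (oP R.B)
      have h10 := R.num_Dm w hp (kP R.B R.bE)
      have h11 := R.num_Nm H w hp
      rw [bnum_swap (Dm _ _), bnum_swap (oP _)] at h10
      simp only [bnum_swap (R.ξ _ _) (pb _ (kP _ _))] at h10
      rw [h5, sum_add_distrib]
      linear_combination h8 + 2 * m * h9 - h10 + h11)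
  refine ⟨h6.2, fun i hi W hW => ?_⟩
  have h7 := Hor83.hor0Stmt E Ω (tw E Ω) R.B R.bE (y i) R.dim_Ω (h1 i hi)
    ((sum_eq_zero_iff_of_nonneg h2).1 h6.1 i (mem_range.2 hi)).le W hW
  rw [hy, val_sub, div_eq_one_iff_eq (val_ne _ _)] at h7
  exact h7.symm

end Run

end Crest.Agent.X262.Surf
end
end

-- ▼ part X262/Surf/K3n

/-!
# Row 262, SURF (helper50), part 5: numbers on a K3 surface of Picard number one; cancellation
-/

set_option autoImplicit false

noncomputable section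

namespace Crest.Agent.X262.Surf

open Crest.Agent.X277 Crest.Agent.X277.Lef Crest.Agent.X277.AN.G1 Crest.Agent.X277.BD
open Crest.Agent.X277.BD.Br Module Filter Finset
open Crest.Agent.X262.Top (K3)

variable {E F : Type} [Field E] [Field F] [Algebra ℂ E] [Algebra ℂ F]
  [Algebra.EssFiniteType ℂ E] [Algebra.EssFiniteType ℂ F] {d : ℕ}

theorem numZ_of_pair (hd : dim ℂ F = 2) {x : BD ℂ F} (h : ∀ y, bnum [x, y] = 0) : NumZ x := by
  intro l
  by_cases hl : l.length = 1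
  · obtain ⟨y, rfl⟩ := List.length_eq_one_iff.1 hl
    exact h y
  · exact bnum_of_ne (by simpa [hd] using hl)

theorem numZ_pb {z : BD ℂ E} (h : NumZ z) (α : E →ₐ[ℂ] F) : NumZ (pb α z) :=
  numZ_of_nef_neg ((Rho82.nef_of_numZ h).pb α)
    (map_neg (pb α) z ▸ (Rho82.nef_of_numZ h.neg).pb α)

theorem num_nonneg {a l : BD ℂ F} (ha : Eff a) (hl : Nef l) : 0 ≤ bnum [a, l] :=
  ha.bnum_nonneg (l := [l]) (by simpa using hl)

omit [Algebra.EssFiniteType ℂ F] in
theorem h0_zero_le : h0 (0 : BD ℂ F) ≤ 1 := by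
  have h1 : (0 : BD ℂ F).Sec ≤ Submodule.span ℂ {1} := fun x hx => by
    have h2 : IsIntegral (⊥ : Subalgebra ℂ F) x := Cns.isIntegral_of_val fun V hV =>
      RZ.le_one_iff.1 (hx ⟨V, Cns.KV.of_le hV⟩)
    obtain ⟨c, rfl⟩ := (IsAlgClosed.algebraMap_bijective_of_isIntegral (k := ℂ)
      (K := integralClosure ℂ F)).2 ⟨x, isIntegral_trans (R := ℂ) x h2⟩ |>.imp
        fun c hc => congrArg Subtype.val hc
    exact Submodule.mem_span_singleton.2 ⟨c, (Algebra.algebraMap_eq_smul_one c).symm⟩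
  have h2 := (Submodule.finrank_mono h1).trans (finrank_span_singleton (one_ne_zero' F)).le
  exact Int.ofNat_le.2 h2

/-- `χ(O) ≤ 1` if `p_g = 0` -/
theorem chi_le_one (hS : SerStmt) {P : PModel ℂ F} {b : B2 F} {c : ℤ} (hc : Chi P b c)
    (h : ¬ Eff (kP P b)) : c ≤ 1 := by
  have h1 := hS F P b c hc 0 (zero_mem _)
  have h2 : h0 (kP P b) = 0 := by
    rw [eff_iff_finrank, not_lt, Nat.le_zero] at h
    rw [h0, h, Nat.cast_zero]
  rw [rr, bnum_zero, sub_zero, h2] at h1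
  linarith [h0_zero_le (F := F)]

namespace K3n

variable (S : K3 F d)

include S in
theorem dim_two : dim ℂ F = 2 := Hor83.dim_two S.b

theorem exists_c : ∃ c : ℕ, 0 < c ∧ NumZ (oP S.P - c • S.L) := by
  obtain ⟨c, hc⟩ := S.gen _ oP_mem
  have h1 := oP_sq_pos S.P S.b
  have h2 := hc _ oP_mem
  have h3 : 0 < c := by
    rw [bnum_sub, bnum_zsmul, sub_eq_zero] at h2
    exact (mul_pos_iff_of_pos_right S.L_pos).1 (h2 ▸ h1)
  lift c to ℕ using h3.le
  rw [natCast_zsmul] at h2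
  refine ⟨c, Int.natCast_pos.1 h3, numZ_of_pair (dim_two S) fun y => ?_⟩
  refine eq_case0 (Λ := []) (by simp) free_oP.nef h1 h2 ?_ y
  simpa only [natCast_zsmul] using hc _ (sub_mem oP_mem (nsmul_mem S.L_on c))

include S in
theorem d_pos : 0 < d := by
  obtain ⟨c, -, h⟩ := exists_c S
  have h1 := h.bnum_eq [S.L]
  rw [bnum_nsmul, S.L_sq, bnum_swap] at h1
  have h2 := S.L_pos
  rw [h1] at h2
  exact Nat.pos_of_ne_zero fun h3 => by simp [h3] at h2

theorem nef_L : Nef S.L := by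
  obtain ⟨c, hc, h⟩ := exists_c S
  refine Nef.of_nsmul hc ?_
  simpa using (free_oP (P := S.P)).nef.add (Rho82.nef_of_numZ h.neg)

theorem dvd_L (hN : NormStmt) (y : BD ℂ F) : (d : ℤ) ∣ bnum [S.L, y] := by
  obtain ⟨A, h1, h2⟩ := hN F F (AlgHom.id ℂ F) S.P S.b y (dim_two S)
  obtain ⟨c, hc⟩ := S.gen A h1
  have h3 := hc _ S.L_on
  rw [bnum_sub, bnum_zsmul, S.L_sq, ← h2 _ S.L_on, pb_id, sub_eq_zero] at h3
  rw [bnum_swap, h3]
  exact dvd_mul_left _ _

theorem lin_k (b : B2 F) : Lin (kP S.P b) 0 := (lin_kP b S.b).trans S.can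

theorem k_num (b : B2 F) (y : BD ℂ F) : bnum [kP S.P b, y] = 0 := by
  rw [(lin_k S b).bnum_eq, bnum_zero]

theorem k_eff {P : PModel ℂ F} (h : oP S.P ∈ On P) (b : B2 F) : Eff (kP P b) :=
  ((lin_k S b).eff Eff.zero).mono (kP_le b h)

theorem k_L (hK : KExcStmt) {P : PModel ℂ F} (h : oP S.P ∈ On P) (b : B2 F) :
    bnum [kP P b, S.L] = 0 := (hK F S.P P b h _ S.L_on).trans (k_num S b _)

/-- nef classes which are orthogonal to the canonical class come from the K3 surface -/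
theorem numZ_of_k (hK : KStmt) {P : PModel ℂ F} (h : oP S.P ∈ On P) (b : B2 F) {a : BD ℂ F}
    (ha : a ∈ On P) (hn : Nef a) (h0 : bnum [kP P b, a] = 0) :
    NumZ (d • a - bnum [a, S.L] • S.L) := by
  have h1 := hK F d S P b h a ha hn
  have hd : 0 < bnum [S.L, S.L] := S.L_sq ▸ Int.natCast_pos.2 (d_pos S)
  have h2 := hi (Λ := []) (by simp) hd a
  rw [h0, ← S.L_sq] at h1
  rw [bnum_swap S.L a] at h2
  refine numZ_of_pair (dim_two S) fun y => ?_
  have h3 := cs_eq (Λ := []) (x := a) (by simp) (nef_L S) hd (by linarith) y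
  rw [bnum_sub, bnum_nsmul, bnum_zsmul, ← S.L_sq, h3, sub_self]

end K3n

theorem cancStmt : CancStmt := by
  rintro F F' _ _ _ _ _ d S ⟨e⟩
  have : Algebra.EssFiniteType F (RatFunc F) :=
    have := Algebra.EssFiniteType.of_isLocalization (R := Polynomial F) (RatFunc F)
      (nonZeroDivisors (Polynomial F))
    Algebra.EssFiniteType.comp F (Polynomial F) (RatFunc F)
  have : Algebra.EssFiniteType ℂ (RatFunc F) := Algebra.EssFiniteType.comp ℂ F (RatFunc F)
  have : Algebra.EssFiniteType ℂ (RatFunc F') := (Algebra.EssFiniteType.iff_of_algEquiv e).1 ‹_›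
  have := R276.FGSub_595.essFiniteType_of_tower ℂ F' (RatFunc F')
  obtain ⟨f, -⟩ := Rul.rul (Rul.pg_of_lin S.can) e
  exact ⟨f⟩

end Crest.Agent.X262.Surf
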